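import Vale.Agent.P054.Doubling.Light
import Mathlib.Combinatorics.Additive.PluenneckeRuzsa

/-!
A set of small doubling in space has at most `O(n^(4/3))` pairs of vectors of equal norm.
-/

namespace Vale.Agent.P054.Doubling

open Finset
open scoped Pointwise

/-- The number of points of `S` in a direction. -/
noncomputable def mult (S : Finset V3) (u : Submodule ℝ V3) : ℕ :=
  open Classical in ((S.filter (· ≠ 0)).filter (fun v => dir v = u)).card

/-- The directions of `S` with between `2^i` and `2^(i+1)` points. -/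
noncomputable def level (S : Finset V3) (i : ℕ) : Finset (Submodule ℝ V3) :=
  open Classical in ((S.filter (· ≠ 0)).image dir).filter fun u => Nat.log 2 (mult S u) = i

theorem mult_pos {S : Finset V3} {v : V3} (hv : v ∈ S) (h0 : v ≠ 0) : 0 < mult S (dir v) := by
  classical
  exact card_pos.2 ⟨v, mem_filter.2 ⟨mem_filter.2 ⟨hv, h0⟩, rfl⟩⟩

theorem dot_self_pos {v : V3} (h : v ≠ 0) : 0 < dot v v := by
  by_contra hc
  refine h (funext fun i => ?_)
  simp only [dot, not_lt] at hc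
  fin_cases i <;> simp <;>
    nlinarith [mul_self_nonneg (v 0), mul_self_nonneg (v 1), mul_self_nonneg (v 2)]

/-- The pairs of different vectors of equal norm which are not opposite. -/
noncomputable def eqPairs (X : Finset V3) : Finset (V3 × V3) :=
  open Classical in
  (X ×ˢ X).filter fun q => dot q.1 q.1 = dot q.2 q.2 ∧ q.1 - q.2 ≠ 0 ∧ q.1 + q.2 ≠ 0

theorem heavy_sub (X : Finset V3) (U : Finset (Submodule ℝ V3)) :
    open Classical in
    ((eqPairs X).filter fun q => dir (q.1 - q.2) ∈ U).card ≤ X.card * U.card := by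
  classical
  rw [← card_product]
  refine card_le_card_of_injOn (fun q => (q.1, dir (q.1 - q.2))) (fun q hq => ?_) ?_
  · simp only [mem_coe, mem_filter, eqPairs, mem_product] at hq ⊢
    exact ⟨hq.1.1.1, hq.2⟩
  · intro q hq q' hq' he
    simp only [mem_coe, mem_filter, eqPairs, mem_product] at hq hq'
    simp only [Prod.mk.injEq] at he
    obtain ⟨⟨-, hn, ha, -⟩, -⟩ := hq
    obtain ⟨⟨-, hn', ha', -⟩, -⟩ := hq'
    obtain ⟨c, hc⟩ := dir_eq_smul he.2.symm
    rw [← he.1] at hc hn' ha'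
    have hy' : q'.2 = q.1 - c • (q.1 - q.2) := by rw [hc, sub_sub_cancel]
    rw [hy'] at hn'
    have key : c * (1 - c) * dot (q.1 - q.2) (q.1 - q.2) = 0 := by
      simp only [dot, Pi.sub_apply, Pi.smul_apply, smul_eq_mul] at hn hn' ⊢
      linear_combination hn' - c * hn
    have hc0 : c ≠ 0 := fun h => ha' (by rw [← hc, h, zero_smul])
    have : c = 1 := by
      have h1 := (mul_eq_zero.1 key).resolve_right (dot_self_pos ha).ne'
      linarith [(mul_eq_zero.1 h1).resolve_left hc0]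
    rw [this, one_smul, sub_sub_cancel] at hy'
    exact Prod.ext he.1 hy'.symm

theorem heavy_add (X : Finset V3) (U : Finset (Submodule ℝ V3)) :
    open Classical in
    ((eqPairs X).filter fun q => dir (q.1 + q.2) ∈ U).card ≤ X.card * U.card := by
  classical
  rw [← card_product]
  refine card_le_card_of_injOn (fun q => (q.1, dir (q.1 + q.2))) (fun q hq => ?_) ?_
  · simp only [mem_coe, mem_filter, eqPairs, mem_product] at hq ⊢
    exact ⟨hq.1.1.1, hq.2⟩
  · intro q hq q' hq' he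
    simp only [mem_coe, mem_filter, eqPairs, mem_product] at hq hq'
    simp only [Prod.mk.injEq] at he
    obtain ⟨⟨-, hn, -, hb⟩, -⟩ := hq
    obtain ⟨⟨-, hn', -, hb'⟩, -⟩ := hq'
    obtain ⟨c, hc⟩ := dir_eq_smul he.2.symm
    rw [← he.1] at hc hn' hb'
    have hy' : q'.2 = c • (q.1 + q.2) - q.1 := by rw [hc, add_sub_cancel_left]
    rw [hy'] at hn'
    have key : c * (1 - c) * dot (q.1 + q.2) (q.1 + q.2) = 0 := by
      simp only [dot, Pi.sub_apply, Pi.add_apply, Pi.smul_apply, smul_eq_mul] at hn hn' ⊢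
      linear_combination hn' - c * hn
    have hc0 : c ≠ 0 := fun h => hb' (by rw [← hc, h, zero_smul])
    have : c = 1 := by
      have h1 := (mul_eq_zero.1 key).resolve_right (dot_self_pos hb).ne'
      linarith [(mul_eq_zero.1 h1).resolve_left hc0]
    rw [this, one_smul, add_sub_cancel_left] at hy'
    exact Prod.ext he.1 hy'.symm

/-- The pairs with both directions in given levels are few. -/
theorem light_pairs (X D B : Finset V3) (hD : X - X ⊆ D) (hB : X + X ⊆ B) (i j : ℕ) :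
    open Classical in
    (((eqPairs X).filter fun q => dir (q.1 - q.2) ∈ level D i ∧ dir (q.1 + q.2) ∈ level B j).card
      : ℝ) ≤ 4 * (2 : ℝ) ^ i * 2 ^ j * (500 * ((((level D i).card : ℝ) * (level B j).card) ^
        ((2 : ℝ) / 3) + (level D i).card + (level B j).card)) := by
  classical
  set U := level D i with hU
  set W := level B j with hW
  have hwU : ∀ u ∈ U, ∃ v, v ≠ 0 ∧ dir v = u := fun u hu => by
    obtain ⟨v, hv, rfl⟩ := mem_image.1 (mem_filter.1 hu).1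
    exact ⟨v, (mem_filter.1 hv).2, rfl⟩
  have hwW : ∀ u ∈ W, ∃ v, v ≠ 0 ∧ dir v = u := fun u hu => by
    obtain ⟨v, hv, rfl⟩ := mem_image.1 (mem_filter.1 hu).1
    exact ⟨v, (mem_filter.1 hv).2, rfl⟩
  choose! ru hu0 hud using hwU
  choose! rw' hw0 hwd using hwW
  set A := ((D.filter (· ≠ 0)) ×ˢ (B.filter (· ≠ 0))).filter fun p =>
    dir p.1 ∈ U ∧ dir p.2 ∈ W ∧ dot p.1 p.2 = 0 with hA
  set F := A.image fun p => (dir p.1, dir p.2) with hF
  have h1 : ((eqPairs X).filter fun q => dir (q.1 - q.2) ∈ U ∧ dir (q.1 + q.2) ∈ W).card ≤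
      A.card := by
    refine card_le_card_of_injOn (fun q => (q.1 - q.2, q.1 + q.2)) (fun q hq => ?_) ?_
    · simp only [mem_coe, mem_filter, eqPairs, mem_product] at hq
      simp only [hA, mem_coe, mem_filter, mem_product]
      refine ⟨⟨⟨hD (sub_mem_sub hq.1.1.1 hq.1.1.2), hq.1.2.2.1⟩,
        hB (add_mem_add hq.1.1.1 hq.1.1.2), hq.1.2.2.2⟩, hq.2.1, hq.2.2, ?_⟩
      have := hq.1.2.1
      simp only [dot, Pi.sub_apply, Pi.add_apply] at this ⊢
      linarith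
    · intro q _ q' _ he
      simp only [Prod.mk.injEq] at he
      have hd := fun k => congrFun he.1 k
      have hs := fun k => congrFun he.2 k
      simp only [Pi.sub_apply, Pi.add_apply] at hd hs
      exact Prod.ext (funext fun k => by linarith [hd k, hs k])
        (funext fun k => by linarith [hd k, hs k])
  have hlog : ∀ {S : Finset V3} {u : Submodule ℝ V3} {e : ℕ}, Nat.log 2 (mult S u) = e →
      mult S u ≤ 2 ^ (e + 1) := fun h => h ▸ (Nat.lt_pow_succ_log_self (by norm_num) _).le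
  have h2 : A.card ≤ (2 ^ (i + 1) * 2 ^ (j + 1)) * F.card := by
    refine card_le_mul_card_image A _ fun f hf => ?_
    obtain ⟨p, hp, rfl⟩ := mem_image.1 hf
    simp only [hA, mem_filter] at hp
    refine le_trans (card_le_card (t := ((D.filter (· ≠ 0)).filter fun v => dir v = dir p.1) ×ˢ
      ((B.filter (· ≠ 0)).filter fun v => dir v = dir p.2)) fun r hr => ?_) ?_
    · simp only [hA, mem_filter, mem_product, Prod.mk.injEq] at hr ⊢
      exact ⟨⟨hr.1.1.1, hr.2.1⟩, hr.1.1.2, hr.2.2⟩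
    · rw [card_product]
      exact Nat.mul_le_mul (hlog (mem_filter.1 hp.2.1).2) (hlog (mem_filter.1 hp.2.2.1).2)
  have h3 : F.card ≤ (((U.image ru) ×ˢ (W.image rw')).filter fun q => dot q.1 q.2 = 0).card := by
    refine card_le_card_of_injOn (fun f => (ru f.1, rw' f.2)) (fun f hf => ?_) ?_
    · obtain ⟨p, hp, rfl⟩ := mem_image.1 hf
      simp only [hA, mem_filter, mem_product] at hp
      simp only [mem_coe, mem_filter, mem_product]
      exact ⟨⟨mem_image_of_mem _ hp.2.1, mem_image_of_mem _ hp.2.2.1⟩,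
        dot_dir hp.1.1.2 hp.1.2.2 (hud _ hp.2.1).symm (hwd _ hp.2.2.1).symm hp.2.2.2⟩
    · intro f hf f' hf' he
      obtain ⟨p, hp, rfl⟩ := mem_image.1 hf
      obtain ⟨p', hp', rfl⟩ := mem_image.1 hf'
      simp only [hA, mem_filter] at hp hp'
      simp only [Prod.mk.injEq] at he ⊢
      exact ⟨by rw [← hud _ hp.2.1, he.1, hud _ hp'.2.1],
        by rw [← hwd _ hp.2.2.1, he.2, hwd _ hp'.2.2.1]⟩
  have h4 := orth_pairs (U.image ru) (W.image rw')
    (fun v hv => by obtain ⟨u, hu, rfl⟩ := mem_image.1 hv; exact hu0 u hu)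
    (fun v hv => by obtain ⟨u, hu, rfl⟩ := mem_image.1 hv; exact hw0 u hu)
    (fun v hv v' hv' he => by
      obtain ⟨u, hu, rfl⟩ := mem_image.1 hv
      obtain ⟨u', hu', rfl⟩ := mem_image.1 hv'
      rw [hud u hu, hud u' hu'] at he; rw [he])
    (fun v hv v' hv' he => by
      obtain ⟨u, hu, rfl⟩ := mem_image.1 hv
      obtain ⟨u', hu', rfl⟩ := mem_image.1 hv'
      rw [hwd u hu, hwd u' hu'] at he; rw [he])
  rw [card_image_of_injOn (fun u hu u' hu' he => by rw [← hud u hu, he, hud u' hu']),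
    card_image_of_injOn (fun u hu u' hu' he => by rw [← hwd u hu, he, hwd u' hu'])] at h4
  refine (Nat.cast_le.2 ((h1.trans h2).trans (Nat.mul_le_mul_left _ h3))).trans ?_
  push_cast
  refine le_trans (mul_le_mul_of_nonneg_left h4 (by positivity)) (le_of_eq ?_)
  ring

theorem cell_arith {A n γ r u w : ℝ} (hA : 1 ≤ A) (hn : 0 ≤ n) (hγ : γ ^ 3 = n) (_hr0 : 0 ≤ r)
    (hr : r ^ 3 = 1 / 2) (hu0 : 0 ≤ u) (hw0 : 0 ≤ w) (i j : ℕ)
    (hu : u ≤ 2 * A * n * ((1 / 2 : ℝ) ^ i) ^ 2) (hw : w ≤ 2 * A * n * ((1 / 2 : ℝ) ^ j) ^ 2) :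
    4 * (2 : ℝ) ^ i * 2 ^ j * (500 * ((u * w) ^ ((2 : ℝ) / 3) + u + w)) ≤
      8000 * A ^ 2 * γ ^ 4 * r ^ i * r ^ j + 4000 * A * n * (1 / 2) ^ i * 2 ^ j +
        4000 * A * n * 2 ^ i * (1 / 2) ^ j := by
  have hγ4 : (γ ^ 4) ^ 3 = n ^ 4 := by rw [← pow_mul, ← hγ, ← pow_mul]
  have hr4 : ∀ e : ℕ, ((r ^ 4) ^ e) ^ 3 = ((1 / 2 : ℝ) ^ e) ^ 4 := fun e => by
    rw [← hr, ← pow_mul, ← pow_mul, ← pow_mul, ← pow_mul]; ring_nf
  have hγ0 : 0 ≤ γ ^ 4 := by positivity
  have hz : (u * w) ^ ((2 : ℝ) / 3) ≤ 4 * A ^ 2 * γ ^ 4 * (r ^ 4) ^ i * (r ^ 4) ^ j := by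
    refine le_of_pow_le_pow_left₀ three_ne_zero (by positivity) ?_
    rw [← Real.rpow_natCast, ← Real.rpow_mul (by positivity),
      show (2 : ℝ) / 3 * ((3 : ℕ) : ℝ) = ((2 : ℕ) : ℝ) by norm_num, Real.rpow_natCast]
    refine (pow_le_pow_left₀ (by positivity) (mul_le_mul hu hw hw0 (by positivity)) 2).trans ?_
    have e : (4 * A ^ 2 * γ ^ 4 * (r ^ 4) ^ i * (r ^ 4) ^ j) ^ 3 =
        64 * A ^ 6 * (γ ^ 4) ^ 3 * ((r ^ 4) ^ i) ^ 3 * ((r ^ 4) ^ j) ^ 3 := by ring
    rw [e, hγ4, hr4, hr4]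
    calc (2 * A * n * ((1 / 2 : ℝ) ^ i) ^ 2 * (2 * A * n * ((1 / 2 : ℝ) ^ j) ^ 2)) ^ 2
        = 16 * A ^ 4 * n ^ 4 * ((1 / 2 : ℝ) ^ i) ^ 4 * ((1 / 2 : ℝ) ^ j) ^ 4 := by ring
      _ ≤ 64 * A ^ 6 * n ^ 4 * ((1 / 2 : ℝ) ^ i) ^ 4 * ((1 / 2 : ℝ) ^ j) ^ 4 := by
          refine mul_le_mul_of_nonneg_right (mul_le_mul_of_nonneg_right
            (mul_le_mul_of_nonneg_right ?_ (by positivity)) (by positivity)) (by positivity)
          exact mul_le_mul (by norm_num) (pow_le_pow_right₀ hA (by norm_num)) (by positivity)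
            (by norm_num)
  have e2 : ∀ e : ℕ, (2 : ℝ) ^ e * (r ^ 4) ^ e = r ^ e := fun e => by
    rw [← mul_pow]; congr 1; linear_combination 2 * r * hr
  have e3 : ∀ e : ℕ, (2 : ℝ) ^ e * ((1 / 2 : ℝ) ^ e) ^ 2 = (1 / 2) ^ e := fun e => by
    rw [sq, ← mul_assoc, ← mul_pow]; norm_num
  calc 4 * (2 : ℝ) ^ i * 2 ^ j * (500 * ((u * w) ^ ((2 : ℝ) / 3) + u + w))
      ≤ 4 * (2 : ℝ) ^ i * 2 ^ j * (500 * (4 * A ^ 2 * γ ^ 4 * (r ^ 4) ^ i * (r ^ 4) ^ j +
          2 * A * n * ((1 / 2 : ℝ) ^ i) ^ 2 + 2 * A * n * ((1 / 2 : ℝ) ^ j) ^ 2)) :=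
        mul_le_mul_of_nonneg_left (by linarith) (by positivity)
    _ = 8000 * A ^ 2 * γ ^ 4 * ((2 : ℝ) ^ i * (r ^ 4) ^ i) * ((2 : ℝ) ^ j * (r ^ 4) ^ j) +
          4000 * A * n * ((2 : ℝ) ^ i * ((1 / 2 : ℝ) ^ i) ^ 2) * 2 ^ j +
          4000 * A * n * 2 ^ i * ((2 : ℝ) ^ j * ((1 / 2 : ℝ) ^ j) ^ 2) := by ring
    _ = _ := by rw [e2, e2, e3, e3]

theorem sum_arith (J : ℕ) (A n γ r : ℝ) (hA : 0 ≤ A) (hn : 0 ≤ n) (hγ : 0 ≤ γ) (hr : 0 ≤ r)
    (hgeo : (∑ i ∈ range J, r ^ i) ≤ 5) (hhalf : (∑ i ∈ range J, (1 / 2 : ℝ) ^ i) ≤ 2)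
    (htwo : (∑ i ∈ range J, (2 : ℝ) ^ i) ≤ 2 * γ) :
    (∑ e ∈ range J ×ˢ range J, (8000 * A ^ 2 * γ ^ 4 * r ^ e.1 * r ^ e.2 +
      4000 * A * n * (1 / 2) ^ e.1 * 2 ^ e.2 + 4000 * A * n * 2 ^ e.1 * (1 / 2) ^ e.2)) ≤
      8000 * A ^ 2 * γ ^ 4 * (5 * 5) + 4000 * A * n * (2 * (2 * γ)) +
        4000 * A * n * (2 * γ * 2) := by
  have key : ∀ (c : ℝ) (f g : ℕ → ℝ), (∑ e ∈ range J ×ˢ range J, c * f e.1 * g e.2) =
      c * ((∑ i ∈ range J, f i) * ∑ j ∈ range J, g j) := by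
    intro c f g
    rw [sum_product, sum_mul_sum, mul_sum]
    refine sum_congr rfl fun i _ => ?_
    rw [mul_sum]
    exact sum_congr rfl fun j _ => by ring
  rw [sum_add_distrib, sum_add_distrib, key, key, key]
  have g0 : 0 ≤ ∑ i ∈ range J, r ^ i := sum_nonneg fun i _ => pow_nonneg hr i
  have h0 : 0 ≤ ∑ i ∈ range J, (1 / 2 : ℝ) ^ i := sum_nonneg fun i _ => by positivity
  have t0 : 0 ≤ ∑ i ∈ range J, (2 : ℝ) ^ i := sum_nonneg fun i _ => by positivity
  gcongr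

theorem energy_bound (X : Finset V3) (hX : X.Nonempty) :
    open Classical in
    (((X ×ˢ X).filter fun q => dot q.1 q.1 = dot q.2 q.2).card : ℝ) ≤
      (10 : ℝ) ^ 28 * (((X + X).card : ℝ) / X.card) ^ 12 * (X.card : ℝ) ^ ((4 : ℝ) / 3) := by
  classical
  have hnN : 0 < X.card := hX.card_pos
  set n : ℝ := (X.card : ℝ) with hn
  have hn1 : (1 : ℝ) ≤ n := by rw [hn]; exact_mod_cast hnN
  set k : ℝ := ((X + X).card : ℝ) / n with hk
  have hk1 : 1 ≤ k := (one_le_div (by linarith)).2 (by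
    rw [hn]; exact_mod_cast card_le_card_add_right hX)
  set N : ℝ := k ^ 3 * n with hN
  have hpr : ∀ a b : ℕ, a + b ≤ 3 → ((a • X - b • X).card : ℝ) ≤ N := by
    intro a b hab
    have h := pluennecke_ruzsa_inequality_nsmul_sub_nsmul_add hX X a b
    have h' : ((a • X - b • X).card : ℝ) ≤
        (((X + X).card : ℝ) / (X.card : ℝ)) ^ (a + b) * (X.card : ℝ) := by
      have h2 : (((a • X - b • X).card : NNRat) : ℝ) ≤
          (((((X + X).card : NNRat) / (X.card : NNRat)) ^ (a + b) * (X.card : NNRat) : NNRat) : ℝ) :=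
        by exact_mod_cast h
      push_cast at h2
      exact h2
    exact h'.trans (mul_le_mul_of_nonneg_right (pow_le_pow_right₀ hk1 hab) (by linarith))
  have hnN' : n ≤ N := le_mul_of_one_le_left (by linarith) (one_le_pow₀ hk1)
  obtain ⟨A, hA⟩ : ∃ A : ℝ, A = 10 ^ 11 * k ^ 6 := ⟨_, rfl⟩
  have hA1 : 1 ≤ A := hA ▸ one_le_mul_of_one_le_of_one_le (by norm_num) (one_le_pow₀ hk1)
  have hrich : ∀ S : Finset V3, (S = X - X ∨ S = X + X) → ∀ m : ℕ, 1 ≤ m →
      ((rich S m).card : ℝ) ≤ A * (n / (m : ℝ) ^ 2 + 1) := by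
    intro S hS m hm
    have h := rich_bound X S hX hm (N := N) ?_ ?_ hnN'
    · refine h.trans (le_of_eq ?_)
      rw [hA, hN, mul_div_assoc, div_self (by linarith : n ≠ 0), mul_one]
      ring
    · rcases hS with rfl | rfl
      · simpa [one_nsmul] using hpr 1 1 (by norm_num)
      · simpa [two_nsmul] using hpr 2 0 (by norm_num)
    · rcases hS with rfl | rfl
      · simpa [two_nsmul, one_nsmul, add_sub_assoc] using hpr 2 1 le_rfl
      · simpa [succ_nsmul, add_assoc] using hpr 3 0 le_rfl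
  obtain ⟨γ, hγ⟩ : ∃ γ : ℝ, γ = n ^ ((1 : ℝ) / 3) := ⟨_, rfl⟩
  have hγ1 : 1 ≤ γ := hγ ▸ Real.one_le_rpow hn1 (by norm_num)
  have hγ3 : γ ^ 3 = n := by
    rw [hγ, ← Real.rpow_natCast, ← Real.rpow_mul (by linarith)]; norm_num
  have h43 : n ^ ((4 : ℝ) / 3) = γ ^ 4 := by
    rw [hγ, ← Real.rpow_natCast, ← Real.rpow_mul (by linarith)]; norm_num
  set J : ℕ := Nat.log 2 ⌊γ⌋₊ + 1 with hJ
  have hfl : 1 ≤ ⌊γ⌋₊ := Nat.le_floor (by simpa using hγ1)
  have hlow : ∀ i < J, (2 : ℝ) ^ i ≤ γ := fun i hi => by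
    have h : 2 ^ i ≤ ⌊γ⌋₊ := (Nat.pow_le_pow_right (by norm_num) (by omega)).trans
      (Nat.pow_log_le_self 2 (by omega))
    exact le_trans (by exact_mod_cast h) (Nat.floor_le (by linarith))
  have hhigh : γ ≤ (2 : ℝ) ^ J := by
    have h : ⌊γ⌋₊ + 1 ≤ 2 ^ J := Nat.lt_pow_succ_log_self (by norm_num) _
    exact (Nat.lt_floor_add_one γ).le.trans (by exact_mod_cast h)
  have hJ2 : (2 : ℝ) ^ J ≤ 2 * γ := by
    rw [hJ, pow_succ, mul_comm]
    exact mul_le_mul_of_nonneg_left (hlow _ (by omega)) (by norm_num)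
  have hheavy : ∀ S : Finset V3, (S = X - X ∨ S = X + X) →
      ((rich S (2 ^ J)).card : ℝ) ≤ 2 * A * γ := by
    intro S hS
    refine (hrich S hS _ Nat.one_le_two_pow).trans ?_
    have h1 : n / ((2 ^ J : ℕ) : ℝ) ^ 2 ≤ γ := by
      push_cast
      rw [div_le_iff₀ (by positivity), ← hγ3]
      nlinarith [pow_le_pow_left₀ (by linarith) hhigh 2]
    nlinarith
  have hlev : ∀ S : Finset V3, (S = X - X ∨ S = X + X) → ∀ i < J,
      ((level S i).card : ℝ) ≤ 2 * A * n * ((1 / 2 : ℝ) ^ i) ^ 2 := by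
    intro S hS i hi
    have hsub : level S i ⊆ rich S (2 ^ i) := by
      intro u hu
      obtain ⟨hu1, hu2⟩ := mem_filter.1 hu
      obtain ⟨v, hv, rfl⟩ := mem_image.1 hu1
      refine mem_filter.2 ⟨hu1, ?_⟩
      rw [← hu2]
      exact Nat.pow_log_le_self 2
        (mult_pos (mem_filter.1 hv).1 (mem_filter.1 hv).2).ne'
    refine (Nat.cast_le.2 (card_le_card hsub)).trans ((hrich S hS _ Nat.one_le_two_pow).trans ?_)
    push_cast
    have h1 : 1 ≤ n / ((2 : ℝ) ^ i) ^ 2 := by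
      rw [one_le_div (by positivity), ← hγ3]
      exact (pow_le_pow_left₀ (by positivity) (hlow i hi) 2).trans
        (pow_le_pow_right₀ hγ1 (by norm_num))
    have h2 : n / ((2 : ℝ) ^ i) ^ 2 = n * ((1 / 2 : ℝ) ^ i) ^ 2 := by
      rw [one_div_pow, one_div, inv_pow, div_eq_mul_inv]
    nlinarith
  obtain ⟨r, hr⟩ : ∃ r : ℝ, r = (1 / 2 : ℝ) ^ ((1 : ℝ) / 3) := ⟨_, rfl⟩
  have hr0 : 0 < r := hr ▸ Real.rpow_pos_of_pos (by norm_num) _
  have hr3 : r ^ 3 = 1 / 2 := by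
    rw [hr, ← Real.rpow_natCast, ← Real.rpow_mul (by norm_num)]; norm_num
  have hr8 : r ≤ 4 / 5 := le_of_pow_le_pow_left₀ three_ne_zero (by norm_num) (by rw [hr3]; norm_num)
  set D := X - X
  set B := X + X
  have hcell : ∀ i < J, ∀ j < J,
      (((eqPairs X).filter fun q =>
        dir (q.1 - q.2) ∈ level D i ∧ dir (q.1 + q.2) ∈ level B j).card : ℝ) ≤
      8000 * A ^ 2 * γ ^ 4 * r ^ i * r ^ j + 4000 * A * n * (1 / 2) ^ i * 2 ^ j +
        4000 * A * n * 2 ^ i * (1 / 2) ^ j := by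
    intro i hi j hj
    refine (light_pairs X D B subset_rfl subset_rfl i j).trans ?_
    exact cell_arith hA1 (by linarith) hγ3 hr0.le hr3 (Nat.cast_nonneg _) (Nat.cast_nonneg _) i j
      (hlev D (Or.inl rfl) i hi) (hlev B (Or.inr rfl) j hj)
  have hgeo : (∑ i ∈ range J, r ^ i) ≤ 5 := by
    have h := geom_sum_mul r J
    have h2 : 0 ≤ r ^ J := by positivity
    have h3 : 0 ≤ ∑ i ∈ range J, r ^ i := sum_nonneg fun i _ => by positivity
    nlinarith
  have hhalf : (∑ i ∈ range J, (1 / 2 : ℝ) ^ i) ≤ 2 := sum_geometric_two_le J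
  have htwo : (∑ i ∈ range J, (2 : ℝ) ^ i) ≤ 2 * γ := by
    have := geom_sum_mul (2 : ℝ) J
    linarith
  have hmain : ((eqPairs X).card : ℝ) ≤ 300000 * A ^ 2 * γ ^ 4 := by
    set L := (range J ×ˢ range J).biUnion fun e => (eqPairs X).filter fun q =>
      dir (q.1 - q.2) ∈ level D e.1 ∧ dir (q.1 + q.2) ∈ level B e.2
    set H1 := (eqPairs X).filter fun q => dir (q.1 - q.2) ∈ rich D (2 ^ J)
    set H2 := (eqPairs X).filter fun q => dir (q.1 + q.2) ∈ rich B (2 ^ J)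
    have hcover : eqPairs X ⊆ H1 ∪ H2 ∪ L := by
      intro q hq
      have hq' := hq
      simp only [eqPairs, mem_filter, mem_product] at hq'
      obtain ⟨⟨hx, hy⟩, -, ha, hb⟩ := hq'
      have hma : q.1 - q.2 ∈ D.filter (· ≠ 0) := mem_filter.2 ⟨sub_mem_sub hx hy, ha⟩
      have hmb : q.1 + q.2 ∈ B.filter (· ≠ 0) := mem_filter.2 ⟨add_mem_add hx hy, hb⟩
      by_cases h1 : 2 ^ J ≤ mult D (dir (q.1 - q.2))
      · exact mem_union_left _ (mem_union_left _ (mem_filter.2 ⟨hq,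
          mem_filter.2 ⟨mem_image_of_mem _ hma, h1⟩⟩))
      by_cases h2 : 2 ^ J ≤ mult B (dir (q.1 + q.2))
      · exact mem_union_left _ (mem_union_right _ (mem_filter.2 ⟨hq,
          mem_filter.2 ⟨mem_image_of_mem _ hmb, h2⟩⟩))
      refine mem_union_right _ (mem_biUnion.2 ⟨(Nat.log 2 (mult D (dir (q.1 - q.2))),
        Nat.log 2 (mult B (dir (q.1 + q.2)))), ?_, mem_filter.2 ⟨hq,
        mem_filter.2 ⟨mem_image_of_mem _ hma, rfl⟩, mem_filter.2 ⟨mem_image_of_mem _ hmb, rfl⟩⟩⟩)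
      simp only [mem_product, mem_range]
      exact ⟨Nat.log_lt_of_lt_pow (mult_pos (mem_filter.1 hma).1 ha).ne' (not_le.1 h1),
        Nat.log_lt_of_lt_pow (mult_pos (mem_filter.1 hmb).1 hb).ne' (not_le.1 h2)⟩
    have hH1 : (H1.card : ℝ) ≤ 2 * A * γ ^ 4 := by
      refine (Nat.cast_le.2 (heavy_sub X _)).trans ?_
      push_cast
      refine (mul_le_mul_of_nonneg_left (hheavy D (Or.inl rfl)) (Nat.cast_nonneg _)).trans
        (le_of_eq ?_)
      rw [← hn, ← hγ3]; ring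
    have hH2 : (H2.card : ℝ) ≤ 2 * A * γ ^ 4 := by
      refine (Nat.cast_le.2 (heavy_add X _)).trans ?_
      push_cast
      refine (mul_le_mul_of_nonneg_left (hheavy B (Or.inr rfl)) (Nat.cast_nonneg _)).trans
        (le_of_eq ?_)
      rw [← hn, ← hγ3]; ring
    have hL : (L.card : ℝ) ≤ 8000 * A ^ 2 * γ ^ 4 * (5 * 5) + 4000 * A * n * (2 * (2 * γ)) +
        4000 * A * n * (2 * γ * 2) := by
      refine (Nat.cast_le.2 card_biUnion_le).trans ?_
      push_cast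
      refine (sum_le_sum fun e he => hcell e.1 (mem_range.1 (mem_product.1 he).1) e.2
        (mem_range.1 (mem_product.1 he).2)).trans ?_
      exact sum_arith J A n γ r (by linarith) (by linarith) (by linarith) hr0.le hgeo hhalf htwo
    have hc := (card_le_card hcover).trans ((card_union_le _ _).trans
      (Nat.add_le_add_right (card_union_le _ _) _))
    have hc' : ((eqPairs X).card : ℝ) ≤ (H1.card : ℝ) + H2.card + L.card := by exact_mod_cast hc
    have hγ4 : n * γ = γ ^ 4 := by rw [← hγ3]; ring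
    have hAA : A * γ ^ 4 ≤ A ^ 2 * γ ^ 4 :=
      mul_le_mul_of_nonneg_right (by nlinarith) (by positivity)
    have e : A * n * γ = A * γ ^ 4 := by rw [mul_assoc, hγ4]
    have : 0 ≤ A ^ 2 * γ ^ 4 := by positivity
    linarith [mul_comm A n]
  set Q := (X ×ˢ X).filter fun q => dot q.1 q.1 = dot q.2 q.2
  have hQ : (Q.card : ℝ) ≤ (eqPairs X).card + 2 * n := by
    have hs : Q ⊆ eqPairs X ∪ (X.image (fun x => (x, x)) ∪ X.image fun x => (x, -x)) := by
      intro q hq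
      obtain ⟨hm, he⟩ := mem_filter.1 hq
      by_cases h1 : q.1 - q.2 = 0
      · exact mem_union_right _ (mem_union_left _ (mem_image.2 ⟨q.1, (mem_product.1 hm).1,
          Prod.ext rfl (sub_eq_zero.1 h1)⟩))
      by_cases h2 : q.1 + q.2 = 0
      · exact mem_union_right _ (mem_union_right _ (mem_image.2 ⟨q.1, (mem_product.1 hm).1,
          Prod.ext rfl (neg_eq_of_add_eq_zero_right h2)⟩))
      exact mem_union_left _ (mem_filter.2 ⟨hm, he, h1, h2⟩)
    have hc := (card_le_card hs).trans ((card_union_le _ _).trans (Nat.add_le_add_left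
      ((card_union_le _ _).trans (Nat.add_le_add card_image_le card_image_le)) _))
    have hc' : (Q.card : ℝ) ≤ (eqPairs X).card + (n + n) := by rw [hn]; exact_mod_cast hc
    linarith
  have hn4 : n ≤ γ ^ 4 := by rw [← hγ3]; exact pow_le_pow_right₀ hγ1 (by norm_num)
  rw [h43]
  have hAk : A ^ 2 = 10 ^ 22 * k ^ 12 := by rw [hA]; ring
  have hk12 : 1 ≤ k ^ 12 := one_le_pow₀ hk1
  have : γ ^ 4 ≤ k ^ 12 * γ ^ 4 := le_mul_of_one_le_left (by positivity) hk12
  rw [hAk] at hmain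
  linarith

end Vale.Agent.P054.Doubling
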