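import Vale.Agent.P054.Doubling.Rich

/-!
Orthogonal pairs of directions: points and lines of the projective plane.
-/

namespace Vale.Agent.P054.Doubling

open Finset

theorem dot_smul_left (c : ℝ) (a b : V3) : dot (c • a) b = c * dot a b := by simp [dot]; ring

theorem dot_smul_right (c : ℝ) (a b : V3) : dot a (c • b) = c * dot a b := by simp [dot]; ring

theorem dot_dir {a b u v : V3} (hu : u ≠ 0) (hv : v ≠ 0) (ha : dir u = dir a) (hb : dir v = dir b)
    (h : dot u v = 0) : dot a b = 0 := by
  obtain ⟨c, rfl⟩ := dir_eq_smul ha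
  obtain ⟨d, rfl⟩ := dir_eq_smul hb
  rw [dot_smul_left, dot_smul_right] at h
  rcases mul_eq_zero.1 h with hc | hc
  · exact absurd (by rw [hc, zero_smul]) hu
  rcases mul_eq_zero.1 hc with hd | hd
  · exact absurd (by rw [hd, zero_smul]) hv
  · exact hd

/-- Orthogonal pairs of directions satisfy the incidence bound. -/
theorem orth_pairs (U W : Finset V3) (hU : ∀ u ∈ U, u ≠ 0) (hW : ∀ w ∈ W, w ≠ 0)
    (hUi : ∀ u ∈ U, ∀ u' ∈ U, dir u = dir u' → u = u')
    (hWi : ∀ w ∈ W, ∀ w' ∈ W, dir w = dir w' → w = w') :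
    open Classical in
    (((U ×ˢ W).filter fun q => dot q.1 q.2 = 0).card : ℝ) ≤
      500 * (((U.card : ℝ) * W.card) ^ ((2 : ℝ) / 3) + U.card + W.card) := by
  classical
  obtain ⟨t, ht⟩ := exists_generic (U ∪ W)
  set pt : V3 → ℝ × ℝ := fun a => ((a 1 + t ^ 3 * a 2) / lf t a, a 2 / lf t a) with hpt
  set ln : V3 → ℝ × ℝ := fun b => (-(b 1 - t * b 0) / lg t b, -(b 0) / lg t b) with hln
  have hf : ∀ u ∈ U, lf t u ≠ 0 := fun u hu => (ht u (mem_union_left _ hu) (hU u hu)).1
  have hg : ∀ w ∈ W, lg t w ≠ 0 := fun w hw => (ht w (mem_union_right _ hw) (hW w hw)).2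
  have hid : ∀ a b, dot a b =
      lf t a * b 0 + (a 1 + t ^ 3 * a 2) * (b 1 - t * b 0) + a 2 * lg t b := fun a b => by
    simp only [dot, lf, lg]; ring
  have hpinj : ∀ u ∈ U, ∀ u' ∈ U, pt u = pt u' → u = u' := by
    intro u hu u' hu' he
    simp only [hpt, Prod.mk.injEq] at he
    have h1 := hf u hu
    have h2 := hf u' hu'
    refine (hUi u hu u' hu' ?_)
    rw [div_eq_div_iff h1 h2, div_eq_div_iff h1 h2] at he
    have : u = (lf t u / lf t u') • u' := by
      funext i
      simp only [Pi.smul_apply, smul_eq_mul]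
      rw [div_mul_eq_mul_div, eq_div_iff h2]
      have e0 : ∀ a : V3, a 0 = lf t a - t * a 1 - t ^ 2 * a 2 := fun a => by simp only [lf]; ring
      have e1 : u 1 * lf t u' = lf t u * u' 1 := by linear_combination he.1 - t ^ 3 * he.2
      fin_cases i
      · simp only [Fin.zero_eta, Fin.isValue]
        rw [e0 u, e0 u']; linear_combination (-t) * e1 - t ^ 2 * he.2
      · exact e1
      · simp only [Fin.reduceFinMk, Fin.isValue]; linear_combination he.2
    rw [this, dir, dir, Submodule.span_singleton_smul_eq (IsUnit.mk0 _ (div_ne_zero h1 h2))]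
  have hlinj : ∀ w ∈ W, ∀ w' ∈ W, ln w = ln w' → w = w' := by
    intro w hw w' hw' he
    simp only [hln, Prod.mk.injEq] at he
    have h1 := hg w hw
    have h2 := hg w' hw'
    refine hWi w hw w' hw' ?_
    rw [div_eq_div_iff h1 h2, div_eq_div_iff h1 h2] at he
    have : w = (lg t w / lg t w') • w' := by
      funext i
      simp only [Pi.smul_apply, smul_eq_mul]
      rw [div_mul_eq_mul_div, eq_div_iff h2]
      have e2 : ∀ a : V3, a 2 = lg t a + t ^ 2 * a 0 + t ^ 3 * a 1 - t ^ 4 * a 0 := fun a => by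
        simp only [lg]; ring
      have e0 : w 0 * lg t w' = lg t w * w' 0 := by linear_combination -he.2
      have e1 : w 1 * lg t w' = lg t w * w' 1 := by linear_combination -he.1 + t * e0
      fin_cases i
      · exact e0
      · exact e1
      · simp only [Fin.reduceFinMk, Fin.isValue]
        rw [e2 w, e2 w']; linear_combination (t ^ 2 - t ^ 4) * e0 + t ^ 3 * e1
    rw [this, dir, dir, Submodule.span_singleton_smul_eq (IsUnit.mk0 _ (div_ne_zero h1 h2))]
  have hsub : ((U ×ˢ W).filter fun q => dot q.1 q.2 = 0).card ≤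
      (ST.inc (U.image pt) (W.image ln)).card := by
    refine card_le_card_of_injOn (fun q => (pt q.1, ln q.2)) (fun q hq => ?_) ?_
    · obtain ⟨hq, h0⟩ := mem_filter.1 hq
      obtain ⟨hu, hw⟩ := mem_product.1 hq
      simp only [mem_coe, ST.inc, mem_filter, mem_product]
      refine ⟨⟨mem_image_of_mem _ hu, mem_image_of_mem _ hw⟩, ?_⟩
      rw [hid] at h0
      have := hf _ hu
      have := hg _ hw
      simp only [hpt, hln, ST.lval]
      field_simp
      linarith
    · intro q hq q' hq' he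
      obtain ⟨hu, hw⟩ := mem_product.1 (mem_filter.1 hq).1
      obtain ⟨hu', hw'⟩ := mem_product.1 (mem_filter.1 hq').1
      simp only [Prod.mk.injEq] at he
      exact Prod.ext (hpinj _ hu _ hu' he.1) (hlinj _ hw _ hw' he.2)
  refine (Nat.cast_le.2 hsub).trans ((ST.szemeredi_trotter _ _).trans (le_of_eq ?_))
  rw [card_image_of_injOn (fun u hu u' hu' => hpinj u hu u' hu'),
    card_image_of_injOn (fun u hu u' hu' => hlinj u hu u' hu')]

end Vale.Agent.P054.Doubling
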