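import Vale.Agent.P054.Doubling.Energy

/-!
Pinned distinct distances of sets of small doubling in space.
-/

namespace Vale.Agent.P054.Doubling

open Finset
open scoped Pointwise

theorem pinned_of_doubling : ∃ c : ℝ, 0 < c ∧
    ∀ (P : Finset (EuclideanSpace ℝ (Fin 3))) (p : EuclideanSpace ℝ (Fin 3)), 2 ≤ P.card →
      c * (P.card : ℝ) ^ ((2 : ℝ) / 3) *
          ((P.card : ℝ) / ((Finset.image₂ (· + ·) P P).card : ℝ)) ^ 12 ≤
        (((P.erase p).image (dist p)).card : ℝ) := by
  refine ⟨1 / (2 * 10 ^ 28), by norm_num, fun P p hP => ?_⟩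
  classical
  set co : EuclideanSpace ℝ (Fin 3) → V3 := fun q i => q i - p i with hco
  have hinj : Function.Injective co := fun a b h => by
    ext i
    simpa [hco] using congrFun h i
  set X := P.image co with hX
  have hcard : X.card = P.card := card_image_of_injective _ hinj
  have hXne : X.Nonempty := card_pos.1 (by omega)
  have hsum : (X + X).card ≤ (Finset.image₂ (· + ·) P P).card := by
    refine le_trans (card_le_card (t := (Finset.image₂ (· + ·) P P).image
      fun q => fun i => q i - 2 * p i) ?_) card_image_le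
    intro v hv
    obtain ⟨a, ha, b, hb, rfl⟩ := mem_add.1 hv
    obtain ⟨a, ha', rfl⟩ := mem_image.1 ha
    obtain ⟨b, hb', rfl⟩ := mem_image.1 hb
    refine mem_image.2 ⟨a + b, mem_image₂_of_mem ha' hb', funext fun i => ?_⟩
    simp only [hco, Pi.add_apply, PiLp.add_apply]
    ring
  have hdist : ∀ q, dot (co q) (co q) = dist p q ^ 2 := by
    intro q
    rw [EuclideanSpace.dist_eq, Real.sq_sqrt (sum_nonneg fun _ _ => sq_nonneg _), Fin.sum_univ_three]
    simp only [dot, hco, Real.dist_eq, sq_abs]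
    ring
  set Vs := X.image fun x => dot x x with hVs
  have hV : Vs.card ≤ ((P.erase p).image (dist p)).card + 1 := by
    have h : Vs ⊆ insert 0 (((P.erase p).image (dist p)).image (· ^ 2)) := by
      intro v hv
      obtain ⟨x, hx, rfl⟩ := mem_image.1 hv
      obtain ⟨q, hq, rfl⟩ := mem_image.1 hx
      rw [hdist]
      by_cases h : q = p
      · simp [h]
      · exact mem_insert_of_mem (mem_image_of_mem _ (mem_image_of_mem _ (mem_erase.2 ⟨h, hq⟩)))
    exact (card_le_card h).trans ((card_insert_le _ _).trans (Nat.add_le_add_right card_image_le 1))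
  have hD1 : 1 ≤ ((P.erase p).image (dist p)).card := by
    refine card_pos.2 (Nonempty.image ?_ _)
    refine card_pos.1 ?_
    have := pred_card_le_card_erase (s := P) (a := p)
    omega
  set Q := (X ×ˢ X).filter fun q => dot q.1 q.1 = dot q.2 q.2 with hQ
  have hcs : (X.card : ℝ) ^ 2 ≤ Vs.card * Q.card := by
    set f : ℝ → ℕ := fun v => (X.filter fun x => dot x x = v).card with hf
    have h1 : X.card = ∑ v ∈ Vs, f v :=
      card_eq_sum_card_fiberwise fun x hx => mem_image_of_mem _ hx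
    have h2 : Q.card = ∑ v ∈ Vs, f v ^ 2 := by
      rw [card_eq_sum_card_fiberwise (f := fun q => dot q.1 q.1) (s := Q) (t := Vs)
        (fun q hq => mem_image_of_mem _ (mem_product.1 (mem_filter.1 hq).1).1)]
      refine sum_congr rfl fun v _ => ?_
      rw [sq, hf, ← card_product]
      congr 1
      ext q
      simp only [hQ, mem_filter, mem_product]
      exact ⟨fun h => ⟨⟨h.1.1.1, h.2⟩, h.1.1.2, h.1.2.symm.trans h.2⟩,
        fun h => ⟨⟨⟨h.1.1, h.2.1⟩, h.1.2.trans h.2.2.symm⟩, h.1.2⟩⟩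
    have h := sq_sum_le_card_mul_sum_sq (s := Vs) (f := fun v => (f v : ℝ))
    rw [h1, h2]
    push_cast
    exact h
  have hE : (Q.card : ℝ) ≤ _ := energy_bound X hXne
  rw [hcard] at hE hcs
  set n : ℝ := (P.card : ℝ)
  set S : ℝ := ((Finset.image₂ (· + ·) P P).card : ℝ)
  set V : ℝ := (Vs.card : ℝ)
  set D : ℝ := (((P.erase p).image (dist p)).card : ℝ)
  have hn : 0 < n := by
    have : (2 : ℝ) ≤ (P.card : ℝ) := by exact_mod_cast hP
    show (0 : ℝ) < (P.card : ℝ)
    linarith
  have hS : 0 < S := by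
    have : 0 < (Finset.image₂ (· + ·) P P).card :=
      card_pos.2 (Nonempty.image₂ (card_pos.1 (by omega)) (card_pos.1 (by omega)))
    show (0 : ℝ) < ((Finset.image₂ (· + ·) P P).card : ℝ)
    exact_mod_cast this
  have hVD : V ≤ 2 * D := by
    have h : Vs.card ≤ 2 * ((P.erase p).image (dist p)).card := by omega
    show (Vs.card : ℝ) ≤ 2 * (((P.erase p).image (dist p)).card : ℝ)
    exact_mod_cast h
  have hsum' : ((X + X).card : ℝ) ≤ S := Nat.cast_le.2 hsum
  have hE' : (Q.card : ℝ) ≤ 10 ^ 28 * (S / n) ^ 12 * n ^ ((4 : ℝ) / 3) :=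
    hE.trans (mul_le_mul_of_nonneg_right (mul_le_mul_of_nonneg_left (pow_le_pow_left₀
      (by positivity) (div_le_div_of_nonneg_right hsum' hn.le) 12) (by norm_num)) (by positivity))
  have hV0 : 0 ≤ V := Nat.cast_nonneg _
  have h := hcs.trans (mul_le_mul hVD hE' (Nat.cast_nonneg _) (by positivity))
  have hsplit : n ^ 2 = n ^ ((2 : ℝ) / 3) * n ^ ((4 : ℝ) / 3) := by
    rw [← Real.rpow_add hn]; norm_num
  rw [hsplit, show 2 * D * (10 ^ 28 * (S / n) ^ 12 * n ^ ((4 : ℝ) / 3)) =
    (2 * 10 ^ 28 * D * (S / n) ^ 12) * n ^ ((4 : ℝ) / 3) by ring] at h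
  have h' := le_of_mul_le_mul_right h (Real.rpow_pos_of_pos hn _)
  calc 1 / (2 * 10 ^ 28) * n ^ ((2 : ℝ) / 3) * (n / S) ^ 12
      ≤ 1 / (2 * 10 ^ 28) * (2 * 10 ^ 28 * D * (S / n) ^ 12) * (n / S) ^ 12 := by gcongr
    _ = D * ((S / n) * (n / S)) ^ 12 := by ring
    _ = D := by rw [div_mul_div_comm, mul_comm n S, div_self (by positivity), one_pow, mul_one]

end Vale.Agent.P054.Doubling
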