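import Vale.Agent.P054.ST.Main

/-!
Few directions carry many points of a set whose translates by `X` stay small.
-/

namespace Vale.Agent.P054.Doubling

open Finset Polynomial
open scoped Pointwise

/-- Three-dimensional space, in coordinates. -/
abbrev V3 : Type := Fin 3 → ℝ

/-- The inner product. -/
def dot (a b : V3) : ℝ := a 0 * b 0 + a 1 * b 1 + a 2 * b 2

/-- A generic linear form. -/
def lf (t : ℝ) (v : V3) : ℝ := v 0 + t * v 1 + t ^ 2 * v 2

/-- A second linear form, used to make the lines of orthogonality non-vertical. -/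
def lg (t : ℝ) (v : V3) : ℝ := v 2 - t ^ 2 * v 0 - t ^ 3 * v 1 + t ^ 4 * v 0

/-- The line through the origin spanned by a vector. -/
def dir (v : V3) : Submodule ℝ V3 := Submodule.span ℝ {v}

theorem lf_add (t : ℝ) (u v : V3) : lf t (u + v) = lf t u + lf t v := by simp [lf]; ring

theorem lf_sub (t : ℝ) (u v : V3) : lf t (u - v) = lf t u - lf t v := by simp [lf]; ring

theorem lf_smul (t c : ℝ) (u : V3) : lf t (c • u) = c * lf t u := by simp [lf]; ring

theorem exists_generic (F : Finset V3) : ∃ t : ℝ, ∀ v ∈ F, v ≠ 0 → lf t v ≠ 0 ∧ lg t v ≠ 0 := by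
  classical
  let p1 : V3 → ℝ[X] := fun v => C (v 0) + C (v 1) * X + C (v 2) * X ^ 2
  let p2 : V3 → ℝ[X] := fun v => C (v 2) - C (v 0) * X ^ 2 - C (v 1) * X ^ 3 + C (v 0) * X ^ 4
  have h1 : ∀ v, v ≠ 0 → p1 v ≠ 0 ∧ p2 v ≠ 0 := by
    intro v hv
    constructor <;> intro h <;> refine hv (funext fun i => ?_) <;>
      have e0 := congrArg (coeff · 0) h <;> have e1 := congrArg (coeff · 1) h <;>
      have e2 := congrArg (coeff · 2) h <;> have e3 := congrArg (coeff · 3) h <;>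
      simp [p1, p2, coeff_X_pow, coeff_C] at e0 e1 e2 e3 <;> fin_cases i <;> simp <;> linarith
  set bad : Finset ℝ := (F.filter (· ≠ 0)).biUnion fun v =>
    (p1 v).roots.toFinset ∪ (p2 v).roots.toFinset with hbad
  obtain ⟨t, ht⟩ := bad.exists_notMem
  refine ⟨t, fun v hv h0 => ?_⟩
  have hnot : t ∉ (p1 v).roots.toFinset ∧ t ∉ (p2 v).roots.toFinset := by
    constructor <;> intro h <;>
      exact ht (mem_biUnion.2 ⟨v, mem_filter.2 ⟨hv, h0⟩, by simp [h]⟩)
  simp only [Multiset.mem_toFinset, mem_roots (h1 v h0).1, mem_roots (h1 v h0).2, IsRoot.def] at hnot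
  constructor
  · intro h; refine hnot.1 ?_; simp [p1, lf] at h ⊢; linarith
  · intro h; refine hnot.2 ?_; simp [p2, lg] at h ⊢; linarith

theorem dir_eq_smul {u v : V3} (h : dir v = dir u) : ∃ c : ℝ, c • u = v :=
  Submodule.mem_span_singleton.1 (show v ∈ dir u from h ▸ Submodule.mem_span_singleton_self v)

/-- The directions with at least `m` points of `S`. -/
noncomputable def rich (S : Finset V3) (m : ℕ) : Finset (Submodule ℝ V3) :=
  open Classical in
  ((S.filter (· ≠ 0)).image dir).filter fun u =>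
    m ≤ ((S.filter (· ≠ 0)).filter (fun v => dir v = u)).card

/-- Solving the incidence bound when every line carries many points. -/
theorem incidence_solve {i P L N m : ℝ} (hP0 : 0 ≤ P) (hL0 : 0 ≤ L) (hP : P ≤ N)
    (hm : 2000 ≤ m) (hLm : m * L ≤ i) (h : i ≤ 500 * ((P * L) ^ ((2 : ℝ) / 3) + P + L)) :
    i ≤ 10 ^ 11 * (N ^ 2 / m ^ 2 + N) := by
  have hN0 : 0 ≤ N := hP0.trans hP
  have hm0 : 0 < m := by linarith
  have hLi : 500 * L ≤ i / 4 := by linarith [mul_le_mul_of_nonneg_right hm hL0]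
  set z := (P * L) ^ ((2 : ℝ) / 3) with hz
  have hz0 : 0 ≤ z := Real.rpow_nonneg (mul_nonneg hP0 hL0) _
  have hzc : z ^ 3 = (P * L) ^ 2 := by
    rw [hz, ← Real.rpow_natCast, ← Real.rpow_mul (mul_nonneg hP0 hL0), ← Real.rpow_natCast]
    norm_num
  have hsq : 0 ≤ N ^ 2 / m ^ 2 := by positivity
  rcases le_or_gt i (4000 * N) with hc | hc
  · linarith
  have h1 : i / 2 ≤ 500 * z := by linarith
  have hi' : 0 < i := by linarith
  have h2 : (i / 2) ^ 3 ≤ 500 ^ 3 * (P * L) ^ 2 := by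
    rw [← hzc, ← mul_pow]; exact pow_le_pow_left₀ (by linarith) h1 3
  have h3 : (P * L) ^ 2 * m ^ 2 ≤ N ^ 2 * i ^ 2 := by
    rw [← mul_pow, ← mul_pow, mul_assoc, mul_comm L]
    exact pow_le_pow_left₀ (mul_nonneg hP0 (mul_nonneg hm0.le hL0))
      (mul_le_mul hP hLm (mul_nonneg hm0.le hL0) hN0) 2
  have h6 : (i / 2) ^ 3 * m ^ 2 ≤ 500 ^ 3 * (N ^ 2 * i ^ 2) :=
    (mul_le_mul_of_nonneg_right h2 (sq_nonneg m)).trans (by
      rw [mul_assoc]; exact mul_le_mul_of_nonneg_left h3 (by norm_num))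
  have h4 : i * m ^ 2 ≤ 10 ^ 11 * N ^ 2 := by
    refine le_of_mul_le_mul_right ?_ (pow_pos hi' 2)
    have : 0 ≤ N ^ 2 * i ^ 2 := by positivity
    linear_combination 8 * h6 + (10 ^ 11 - 8 * 500 ^ 3) * this
  have h5 : i ≤ 10 ^ 11 * (N ^ 2 / m ^ 2) := by
    rw [← mul_div_assoc, le_div_iff₀ (by positivity)]; exact h4
  linarith

theorem rich_bound (X S : Finset V3) (hX : X.Nonempty) {m : ℕ} (hm : 1 ≤ m) {N : ℝ}
    (hS : (S.card : ℝ) ≤ N) (hXS : ((X + S).card : ℝ) ≤ N) (hn : (X.card : ℝ) ≤ N) :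
    ((rich S m).card : ℝ) ≤
      (10 : ℝ) ^ 11 * (N / X.card) ^ 2 * ((X.card : ℝ) / (m : ℝ) ^ 2 + 1) := by
  classical
  set n : ℝ := (X.card : ℝ)
  have hn0 : 0 < n := by
    have := hX.card_pos
    show (0 : ℝ) < (X.card : ℝ); exact_mod_cast this
  have hN0 : 0 < N := hn0.trans_le hn
  have hk1 : 1 ≤ N / n := (one_le_div hn0).2 hn
  have hm' : (1 : ℝ) ≤ m := by exact_mod_cast hm
  set R := rich S m with hR
  have hRS : (R.card : ℝ) ≤ N := by
    refine le_trans ?_ hS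
    exact_mod_cast (card_filter_le _ _).trans (card_image_le.trans (card_filter_le _ _))
  set K : ℝ := (10 : ℝ) ^ 11 * (N / n) ^ 2
  by_cases hsmall : m < 2000
  · refine hRS.trans ?_
    have h2 : (m : ℝ) ^ 2 ≤ 4000000 := by
      have : (m : ℝ) ≤ 2000 := by exact_mod_cast hsmall.le
      nlinarith
    have h3 : N * (m : ℝ) ^ 2 ≤ K * n := by
      calc N * (m : ℝ) ^ 2 ≤ N * 4000000 := mul_le_mul_of_nonneg_left h2 hN0.le
        _ ≤ N * (10 ^ 11 * (N / n)) := mul_le_mul_of_nonneg_left (by nlinarith) hN0.le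
        _ = K * n := by simp only [K]; field_simp
    have h4 : N ≤ K * (n / (m : ℝ) ^ 2) := by
      rw [← mul_div_assoc, le_div_iff₀ (by positivity)]; exact h3
    have : 0 ≤ K := by positivity
    nlinarith
  push Not at hsmall
  -- a generic projection to the plane
  have hw : ∀ u ∈ R, ∃ v ∈ S, v ≠ 0 ∧ dir v = u := fun u hu => by
    obtain ⟨v, hv, rfl⟩ := mem_image.1 (mem_filter.1 hu).1
    exact ⟨v, (mem_filter.1 hv).1, (mem_filter.1 hv).2, rfl⟩
  choose! rp hrp1 hrp2 hrp3 using hw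
  obtain ⟨t, ht⟩ := exists_generic (S ∪ ((X + S) - (X + S)))
  obtain ⟨t', ht'⟩ := exists_generic
    ((R ×ˢ R).image fun q => lf t (rp q.1) • rp q.2 - lf t (rp q.2) • rp q.1)
  set pr : V3 → ℝ × ℝ := fun w => (lf t w, lf t' w) with hpr
  set line : Submodule ℝ V3 → V3 → ℝ × ℝ := fun u x =>
    (lf t' (rp u) / lf t (rp u), lf t' x - lf t' (rp u) / lf t (rp u) * lf t x) with hline
  have hne : ∀ u ∈ R, lf t (rp u) ≠ 0 := fun u hu =>
    (ht _ (mem_union_left _ (hrp1 u hu)) (hrp2 u hu)).1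
  have hinj : ∀ w ∈ X + S, ∀ w' ∈ X + S, pr w = pr w' → w = w' := by
    intro w hw w' hw' he
    by_contra h
    refine (ht (w - w') (mem_union_right _ (sub_mem_sub hw hw')) (sub_ne_zero.2 h)).1 ?_
    rw [lf_sub, show lf t w = lf t w' from (Prod.ext_iff.1 he).1, sub_self]
  have hslope : ∀ u ∈ R, ∀ u' ∈ R, ∀ x y, line u x = line u' y → u = u' := by
    intro u hu u' hu' x y he
    have h1 := (Prod.ext_iff.1 he).1
    simp only [hline] at h1
    by_contra hne'
    set w := lf t (rp u) • rp u' - lf t (rp u') • rp u with hw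
    refine (ht' w (mem_image.2 ⟨(u, u'), mem_product.2 ⟨hu, hu'⟩, rfl⟩) ?_).1 ?_
    · intro h0
      refine hne' ?_
      have h2 : rp u' = (lf t (rp u') / lf t (rp u)) • rp u := by
        rw [div_eq_inv_mul, ← smul_smul, ← sub_eq_zero.1 (show _ - _ = (0 : V3) from h0),
          inv_smul_smul₀ (hne u hu)]
      rw [← hrp3 u hu, ← hrp3 u' hu', h2, dir, dir, Submodule.span_singleton_smul_eq
        (IsUnit.mk0 _ (div_ne_zero (hne u' hu') (hne u hu)))]
    · rw [hw, lf_sub, lf_smul, lf_smul]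
      rw [div_eq_div_iff (hne u hu) (hne u' hu')] at h1
      linarith
  have hinc : ∀ u ∈ R, ∀ x ∈ X, ∀ s ∈ S, s ≠ 0 → dir s = u →
      (pr (x + s), line u x) ∈ ST.inc ((X + S).image pr)
        ((R ×ˢ X).image fun q => line q.1 q.2) := by
    intro u hu x hx s hs _ hdir
    simp only [ST.inc, mem_filter, mem_product]
    refine ⟨⟨mem_image_of_mem _ (add_mem_add hx hs), mem_image.2 ⟨(u, x), mem_product.2 ⟨hu, hx⟩,
      rfl⟩⟩, ?_⟩
    obtain ⟨c, rfl⟩ := dir_eq_smul (hdir.trans (hrp3 u hu).symm)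
    simp only [hpr, hline, ST.lval, lf_add, lf_smul]
    have := hne u hu
    field_simp
    ring
  set L := (R ×ˢ X).image fun q => line q.1 q.2 with hL
  set I := ST.inc ((X + S).image pr) L with hI
  have hIn : R.card * X.card ≤ I.card := by
    rw [← card_product]
    refine card_le_card_of_injOn (fun q => (pr (q.2 + rp q.1), line q.1 q.2)) (fun q hq => ?_) ?_
    · obtain ⟨hu, hx⟩ := mem_product.1 hq
      exact hinc _ hu _ hx _ (hrp1 _ hu) (hrp2 _ hu) (hrp3 _ hu)
    · intro q hq q' hq' he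
      obtain ⟨hu, hx⟩ := mem_product.1 hq
      obtain ⟨hu', hx'⟩ := mem_product.1 hq'
      simp only [Prod.mk.injEq] at he
      have e1 := hslope _ hu _ hu' _ _ he.2
      have e2 := hinj _ (add_mem_add hx (hrp1 _ hu)) _ (add_mem_add hx' (hrp1 _ hu')) he.1
      rw [e1] at e2
      exact Prod.ext e1 (add_right_cancel e2)
  have hIm : m * L.card ≤ I.card := by
    rw [mul_comm, card_eq_sum_card_fiberwise (f := Prod.snd) (s := I) (t := L)
      (fun q hq => (mem_product.1 (mem_filter.1 hq).1).2), ← smul_eq_mul, ← sum_const]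
    refine sum_le_sum fun l hl => ?_
    obtain ⟨⟨u, x⟩, hq, rfl⟩ := mem_image.1 hl
    obtain ⟨hu, hx⟩ := mem_product.1 hq
    refine (mem_filter.1 hu).2.trans
      (card_le_card_of_injOn (fun s => (pr (x + s), line u x)) (fun s hs => ?_) ?_)
    · simp only [mem_coe, mem_filter] at hs
      exact mem_coe.2 (mem_filter.2 ⟨hinc u hu x hx s hs.1.1 hs.1.2 hs.2, rfl⟩)
    · intro s hs s' hs' he
      simp only [mem_coe, mem_filter] at hs hs'
      exact add_left_cancel (hinj _ (add_mem_add hx hs.1.1) _ (add_mem_add hx hs'.1.1)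
        (Prod.ext_iff.1 he).1)
  set i : ℝ := (I.card : ℝ)
  have hi0 : 0 ≤ i := Nat.cast_nonneg _
  set P' : ℝ := (((X + S).image pr).card : ℝ)
  have hP : P' ≤ N := le_trans (Nat.cast_le.2 card_image_le) hXS
  have hP0 : 0 ≤ P' := Nat.cast_nonneg _
  have hLm : (m : ℝ) * L.card ≤ i := by show _ ≤ (I.card : ℝ); exact_mod_cast hIm
  have hRn : (R.card : ℝ) * n ≤ i := by show (R.card : ℝ) * (X.card : ℝ) ≤ (I.card : ℝ); exact_mod_cast hIn
  have hst : i ≤ 500 * ((P' * L.card) ^ ((2 : ℝ) / 3) + P' + L.card) :=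
    ST.szemeredi_trotter _ _
  have hm2 : (2000 : ℝ) ≤ m := by exact_mod_cast hsmall
  have hLi : 500 * (L.card : ℝ) ≤ i / 4 := by
    have := mul_le_mul_of_nonneg_right hm2 (Nat.cast_nonneg L.card : (0 : ℝ) ≤ _)
    linarith
  have hfin : i ≤ 10 ^ 11 * (N ^ 2 / (m : ℝ) ^ 2 + N) :=
    incidence_solve hP0 (Nat.cast_nonneg _) hP hm2 hLm hst
  have hK : K * (n / (m : ℝ) ^ 2 + 1) * n =
      10 ^ 11 * (N ^ 2 / (m : ℝ) ^ 2 + N * (N / n)) := by simp only [K]; field_simp
  refine le_of_mul_le_mul_right ?_ hn0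
  rw [hK]
  refine hRn.trans (hfin.trans ?_)
  have := le_mul_of_one_le_right hN0.le hk1
  linarith

end Vale.Agent.P054.Doubling
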